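import Crest.Statements.S0359
import Crest.Agent.LpDim.Norms
import Crest.Agent.LpDim.Extend
import Crest.Agent.LpDim.Config

set_option autoImplicit false
open MeasureTheory
open scoped ENNReal
open Crest Crest.GeometryTopology

namespace Crest.Agent.S0359

/-- Fix an exponent 1 < p < ∞ with p ≠ 2 and n ≥ 9. If d is a dimension such that every n distinct points of any real L^p space can be mapped to the d-dimensional real ℓ^p space with all pairwise distances multiplied by one common factor s > 0 (an isometric embedding up to scaling), then ⌊(n − 1)/4⌋² ≤ d. -/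
theorem result
    (p : ℝ≥0∞) [Fact (1 ≤ p)] (hp1 : 1 < p) (hptop : p ≠ ⊤) (hp2 : p ≠ 2)
    (n : ℕ) (hn : 9 ≤ n) (d : ℕ)
    (hd : ∀ (α : Type) [MeasurableSpace α] (μ : Measure α) (x : Fin n → Lp ℝ p μ),
      Function.Injective x →
      ∃ (y : Fin n → PiLp p (fun _ : Fin d => ℝ)) (s : ℝ), 0 < s ∧
        ∀ i j, ‖y i - y j‖ = s * ‖x i - x j‖) :
    ((n - 1) / 4) ^ 2 ≤ d := by
  classical
  set m := (n - 1) / 4 with hm
  have hm1 : 1 ≤ m := by omega
  have hq1 : 1 < p.toReal := by
    have := (ENNReal.toReal_lt_toReal (by simp) hptop).2 hp1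
    simpa using this
  have hq2 : p.toReal ≠ 2 := by
    intro h
    apply hp2
    have : p = ENNReal.ofReal 2 := by rw [← h, ENNReal.ofReal_toReal hptop]
    simpa using this
  have : Nonempty (Fin m × Fin m) := ⟨(⟨0, hm1⟩, ⟨0, hm1⟩)⟩
  have : Infinite (Lp ℝ p (Measure.count : Measure (Fin m × Fin m))) :=
    Crest.Agent.LpDim.infinite_Lp_count p hptop
  have hcard : Fintype.card (Option (Bool × Bool × Fin m)) ≤ n := by
    simp only [Fintype.card_option, Fintype.card_prod, Fintype.card_bool, Fintype.card_fin]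
    omega
  obtain ⟨Y, s, hs, hY⟩ := Crest.Agent.LpDim.extend_family
    (hd (Fin m × Fin m) (Measure.count : Measure (Fin m × Fin m))) hcard
    (fun a => Crest.Agent.LpDim.toLpCount p (Crest.Agent.LpDim.conf a))
  refine Crest.Agent.LpDim.main_config (q := p.toReal) (c := s ^ p.toReal) hq1 hq2
    (Real.rpow_pos_of_pos hs _) (fun a k => Y a k) ?_
  intro a b
  rw [← Crest.Agent.LpDim.norm_piLp_sub p hptop, hY a b,
    Real.mul_rpow hs.le (norm_nonneg _), Crest.Agent.LpDim.norm_toLpCount_sub p hptop]

end Crest.Agent.S0359
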