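import Crest.Statements.S0505
import Crest.Agent.IMM5.Circuit

set_option autoImplicit false
universe u
open Crest Crest.LogicCS

namespace Crest.Agent.S0505

/-- The purely numerical part of the second size bound. -/
theorem numeric (x y a b q : ℝ) (hx : 2 ≤ x) (hy : x ≤ y) (ha0 : 0 ≤ a) (ha : a ≤ y) (hb : b ≤ y)
    (hq0 : 0 ≤ q) (hq : q ≤ x - 1) :
    2 * x ^ 3 + q * x ^ 2 + q * (a * x ^ 2) + b + 1 ≤ y * x ^ 4 := by
  have hx2 : 0 ≤ x ^ 2 := by positivity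
  have h1 : q * x ^ 2 ≤ (x - 1) * x ^ 2 := mul_le_mul_of_nonneg_right hq hx2
  have h2 : q * (a * x ^ 2) ≤ (x - 1) * (y * x ^ 2) :=
    mul_le_mul hq (mul_le_mul_of_nonneg_right ha hx2) (by positivity) (by linarith)
  have h3 : 0 ≤ x ^ 4 - x ^ 3 + x ^ 2 - 1 := by nlinarith [sq_nonneg (x ^ 2), sq_nonneg x]
  have h4 : x * (x ^ 4 - x ^ 3 + x ^ 2 - 1) ≤ y * (x ^ 4 - x ^ 3 + x ^ 2 - 1) :=
    mul_le_mul_of_nonneg_right hy h3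
  have h5 : 3 * x ^ 3 - x ^ 2 + 1 ≤ x * (x ^ 4 - x ^ 3 + x ^ 2 - 1) := by
    obtain ⟨m, rfl⟩ : ∃ m, x = 2 + m := ⟨x - 2, by ring⟩
    have hm : 0 ≤ m := by linarith
    have : 0 ≤ m ^ 5 + 9 * m ^ 4 + 30 * m ^ 3 + 45 * m ^ 2 + 27 * m + 1 := by positivity
    nlinarith [this]
  nlinarith [h1, h2, h4, h5]

/-- For every field K and every n ≥ 2 there is a syntactically homogeneous depth-five sum-product circuit over K in the n³ matrix-entry variables (shared gates, unrestricted fan-in and bottom support) whose output is the top-left entry of the ordered product of the n variable matrices of order n and whose number of vertices, leaves included, is at most 2n³ + r·n² + r·n^(t+1) + n^(r−1) + 1 with t = ⌈√n⌉, r = ⌈n/t⌉, and also at most n^(√n + 4). Layers are indexed by initial segments of ℕ. -/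
theorem result (K : Type u) [Field K] (n : ℕ)
    (hn : 2 ≤ n) :
    ∃ (l b p s r : ℕ)
      (C : Crest.ArithCircuit.SPSPS K (Fin n × Fin n × Fin n) (Fin l) (Fin b) (Fin p) (Fin s) (Fin r)),
      C.IsHomogeneous ∧ C.output = Crest.ArithCircuit.imm K n ∧
        C.size ≤ 2 * n ^ 3 + ⌈(n : ℝ) / ⌈Real.sqrt n⌉₊⌉₊ * n ^ 2 +
          ⌈(n : ℝ) / ⌈Real.sqrt n⌉₊⌉₊ * n ^ (⌈Real.sqrt n⌉₊ + 1) +
          n ^ (⌈(n : ℝ) / ⌈Real.sqrt n⌉₊⌉₊ - 1) + 1 ∧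
        (C.size : ℝ) ≤ (n : ℝ) ^ (Real.sqrt n + 4) := by
  haveI : NeZero n := ⟨by omega⟩
  have hnR : (2 : ℝ) ≤ n := by exact_mod_cast hn
  have hn0 : (0 : ℝ) < n := by linarith
  have hsq0 : 0 < Real.sqrt n := Real.sqrt_pos.mpr hn0
  have hsq1 : 1 < Real.sqrt n := by
    rw [show (1 : ℝ) = Real.sqrt 1 by simp]
    exact Real.sqrt_lt_sqrt (by norm_num) (by linarith)
  have hsqsq : Real.sqrt n * Real.sqrt n = n := Real.mul_self_sqrt hn0.le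
  -- t = τ + 1
  obtain ⟨τ, hτ⟩ : ∃ τ, ⌈Real.sqrt n⌉₊ = τ + 1 :=
    ⟨⌈Real.sqrt n⌉₊ - 1, by have := Nat.ceil_pos.mpr hsq0; omega⟩
  have ht_ge : Real.sqrt n ≤ ((τ + 1 : ℕ) : ℝ) := hτ ▸ Nat.le_ceil _
  have ht_lt : ((τ + 1 : ℕ) : ℝ) < Real.sqrt n + 1 := hτ ▸ Nat.ceil_lt_add_one hsq0.le
  have htpos : (0 : ℝ) < ((τ + 1 : ℕ) : ℝ) := by positivity
  have hτ1 : 1 ≤ τ := by
    have : (1 : ℝ) < ((τ + 1 : ℕ) : ℝ) := lt_of_lt_of_le hsq1 ht_ge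
    have : 1 < τ + 1 := by exact_mod_cast this
    omega
  rw [hτ]
  have hdiv0 : 0 < (n : ℝ) / ((τ + 1 : ℕ) : ℝ) := div_pos hn0 htpos
  obtain ⟨ρ, hρ⟩ : ∃ ρ, ⌈(n : ℝ) / ((τ + 1 : ℕ) : ℝ)⌉₊ = ρ + 1 :=
    ⟨⌈(n : ℝ) / ((τ + 1 : ℕ) : ℝ)⌉₊ - 1, by have := Nat.ceil_pos.mpr hdiv0; omega⟩
  have hr_ge : (n : ℝ) / ((τ + 1 : ℕ) : ℝ) ≤ ((ρ + 1 : ℕ) : ℝ) := hρ ▸ Nat.le_ceil _
  have hr_lt : ((ρ + 1 : ℕ) : ℝ) < (n : ℝ) / ((τ + 1 : ℕ) : ℝ) + 1 :=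
    hρ ▸ Nat.ceil_lt_add_one hdiv0.le
  rw [hρ]
  have hρlt : (ρ : ℝ) < (n : ℝ) / ((τ + 1 : ℕ) : ℝ) := by push_cast at hr_lt ⊢; linarith
  have h1 : ρ * (τ + 1) < n := by
    have := (lt_div_iff₀ htpos).mp hρlt
    exact_mod_cast this
  have h2 : n ≤ (ρ + 1) * (τ + 1) := by
    have := (div_le_iff₀ htpos).mp hr_ge
    exact_mod_cast this
  obtain ⟨l, b, p, s, r, C, hC1, hC2, hC3⟩ := Crest.Agent.IMM5.exists_circuit K n ρ τ h1 h2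
  refine ⟨l, b, p, s, r, C, hC1, hC2, ?_, ?_⟩
  · rw [hC3, Nat.add_sub_cancel]
  · rw [hC3]
    have hρn : ρ + 2 ≤ n := by nlinarith
    have hρsq : (ρ : ℝ) ≤ Real.sqrt n := by
      have : (n : ℝ) / ((τ + 1 : ℕ) : ℝ) ≤ Real.sqrt n := by
        rw [div_le_iff₀ htpos]
        nlinarith
      linarith
    have hτsq : (τ : ℝ) ≤ Real.sqrt n := by push_cast at ht_lt; linarith
    have h1n : (1 : ℝ) ≤ n := by linarith
    have hy : (n : ℝ) ≤ (n : ℝ) ^ Real.sqrt n := by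
      calc (n : ℝ) = (n : ℝ) ^ (1 : ℝ) := (Real.rpow_one _).symm
        _ ≤ (n : ℝ) ^ Real.sqrt n := Real.rpow_le_rpow_of_exponent_le h1n hsq1.le
    have ha : (n : ℝ) ^ τ ≤ (n : ℝ) ^ Real.sqrt n := by
      rw [← Real.rpow_natCast]
      exact Real.rpow_le_rpow_of_exponent_le h1n hτsq
    have hb : (n : ℝ) ^ ρ ≤ (n : ℝ) ^ Real.sqrt n := by
      rw [← Real.rpow_natCast]
      exact Real.rpow_le_rpow_of_exponent_le h1n hρsq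
    have hq : ((ρ : ℝ) + 1) ≤ (n : ℝ) - 1 := by
      have : ((ρ + 2 : ℕ) : ℝ) ≤ n := by exact_mod_cast hρn
      push_cast at this
      linarith
    have key := numeric (n : ℝ) ((n : ℝ) ^ Real.sqrt n) ((n : ℝ) ^ τ) ((n : ℝ) ^ ρ) ((ρ : ℝ) + 1)
      hnR hy (by positivity) ha hb (by positivity) hq
    have hsplit : (n : ℝ) ^ (Real.sqrt n + 4) = (n : ℝ) ^ Real.sqrt n * (n : ℝ) ^ 4 := by
      rw [Real.rpow_add hn0]
      congr 1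
      exact_mod_cast Real.rpow_natCast (n : ℝ) 4
    rw [hsplit]
    push_cast
    calc (2 * (n : ℝ) ^ 3 + ((ρ : ℝ) + 1) * (n : ℝ) ^ 2 + ((ρ : ℝ) + 1) * (n : ℝ) ^ (τ + 1 + 1)
          + (n : ℝ) ^ ρ + 1)
        = 2 * (n : ℝ) ^ 3 + ((ρ : ℝ) + 1) * (n : ℝ) ^ 2 + ((ρ : ℝ) + 1) * ((n : ℝ) ^ τ * (n : ℝ) ^ 2)
          + (n : ℝ) ^ ρ + 1 := by ring
      _ ≤ _ := key

end Crest.Agent.S0505
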